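import Vale.Agent.P255.Statement
import Vale.Agent.P255.Final
import Vale.Agent.P255.Cover.Exp

/-!
# P255: metrics without conjugate points do not force nonpositive curvature
-/

open scoped Manifold ContDiff

namespace Vale.Agent.Results.P255.NoConjugateNotNonpositive

open Vale.Agent.P255

/-- A closed connected three-manifold with a metric without conjugate points and without any
metric of nonpositive sectional curvature. -/
theorem result : Statement.Counterexample (EuclideanSpace ℝ (Fin 3)) :=
  counterexampleExists_of_exp fun _M _ _ _ _ _ _ g hn => Cover.exists_exp g hn

end Vale.Agent.Results.P255.NoConjugateNotNonpositive
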